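import Mathlib

/-!
P200: graded pieces of homogeneous ideals and the exact sequence of a hyperplane section,
`dim I_{d+1} = dim (I : ℓ)_d + dim (I restricted to ℓ = 0)_{d+1}`.
-/

noncomputable section

namespace Vale.Agent.P200

open MvPolynomial Module

variable {K : Type*} [Field K] {n : ℕ}

/-- The forms of degree `d` in `n` variables. -/
abbrev part (K : Type*) [Field K] (n d : ℕ) : Submodule K (MvPolynomial (Fin n) K) :=
  homogeneousSubmodule (Fin n) K d

instance (d : ℕ) : Module.Finite K (part K n d) :=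
  Module.Finite.iff_fg.2 (homogeneousSubmodule_fg (Fin n) K d)

/-- Every homogeneous component of a member is a member. -/
def Homog (I : Ideal (MvPolynomial (Fin n) K)) : Prop :=
  ∀ p ∈ I, ∀ d, homogeneousComponent d p ∈ I

/-- The degree `d` part of an ideal. -/
def piece (I : Ideal (MvPolynomial (Fin n) K)) (d : ℕ) : Submodule K (MvPolynomial (Fin n) K) :=
  I.restrictScalars K ⊓ part K n d

lemma mem_piece {I : Ideal (MvPolynomial (Fin n) K)} {d : ℕ} {p : MvPolynomial (Fin n) K} :
    p ∈ piece I d ↔ p ∈ I ∧ p.IsHomogeneous d := Iff.rfl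

instance (I : Ideal (MvPolynomial (Fin n) K)) (d : ℕ) : Module.Finite K (piece I d) :=
  Submodule.finiteDimensional_of_le inf_le_right

/-- The Hilbert function of the quotient. -/
def hilb (I : Ideal (MvPolynomial (Fin n) K)) (d : ℕ) : ℕ :=
  finrank K (part K n d) - finrank K (piece I d)

lemma hilb_add (I : Ideal (MvPolynomial (Fin n) K)) (d : ℕ) :
    hilb I d + finrank K (piece I d) = finrank K (part K n d) :=
  Nat.sub_add_cancel (Submodule.finrank_mono inf_le_right)

lemma piece_top (d : ℕ) : piece (⊤ : Ideal (MvPolynomial (Fin n) K)) d = part K n d :=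
  le_antisymm inf_le_right fun _ hp => ⟨Submodule.mem_top, hp⟩

lemma hilb_top (d : ℕ) : hilb (⊤ : Ideal (MvPolynomial (Fin n) K)) d = 0 := by
  rw [hilb, piece_top, Nat.sub_self]

lemma hilb_anti {I J : Ideal (MvPolynomial (Fin n) K)} (h : I ≤ J) (d : ℕ) :
    hilb J d ≤ hilb I d :=
  Nat.sub_le_sub_left (Submodule.finrank_mono (R := K) (s := piece I d) (t := piece J d)
    (inf_le_inf_right _ fun _ hp => h hp)) _

lemma finrank_part_zero : finrank K (part K n 0) ≤ 1 := by
  rw [part, homogeneousSubmodule_zero, Submodule.one_eq_span]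
  exact (finrank_span_le_card _).trans (by simp)

lemma hilb_zero_le (I : Ideal (MvPolynomial (Fin n) K)) : hilb I 0 ≤ 1 :=
  (Nat.sub_le _ _).trans finrank_part_zero

/-- The colon ideal by one element. -/
def colon (I : Ideal (MvPolynomial (Fin n) K)) (a : MvPolynomial (Fin n) K) :
    Ideal (MvPolynomial (Fin n) K) :=
  Submodule.comap (LinearMap.mulLeft (MvPolynomial (Fin n) K) a) I

lemma mem_colon {I : Ideal (MvPolynomial (Fin n) K)} {a p : MvPolynomial (Fin n) K} :
    p ∈ colon I a ↔ a * p ∈ I := Iff.rfl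

lemma le_colon (I : Ideal (MvPolynomial (Fin n) K)) (a : MvPolynomial (Fin n) K) :
    I ≤ colon I a := fun _ hp => I.mul_mem_left a hp

lemma component_mul {a : MvPolynomial (Fin n) K} (ha : a.IsHomogeneous 1)
    (p : MvPolynomial (Fin n) K) (d : ℕ) :
    homogeneousComponent (d + 1) (a * p) = a * homogeneousComponent d p := by
  conv_lhs => rw [← sum_homogeneousComponent (φ := p), Finset.mul_sum, map_sum]
  rw [Finset.sum_eq_single d]
  · rw [homogeneousComponent_eq_self]
    rw [add_comm]
    exact ha.mul (homogeneousComponent_isHomogeneous d p)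
  · intro i _ hi
    rw [homogeneousComponent_of_mem (n := 1 + i) (ha.mul (homogeneousComponent_isHomogeneous i p)),
      if_neg (by omega)]
  · intro hd
    rw [Finset.mem_range, not_lt] at hd
    rw [homogeneousComponent_eq_zero d p (by omega)]
    simp

lemma Homog.colon {I : Ideal (MvPolynomial (Fin n) K)} (hI : Homog I)
    {a : MvPolynomial (Fin n) K} (ha : a.IsHomogeneous 1) : Homog (colon I a) := fun p hp d => by
  rw [mem_colon, ← component_mul ha]
  exact hI _ hp (d + 1)

/-- A linear projection onto the hyperplane `a = 0`: surjective, degree preserving, kernel `(a)`. -/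
structure Hyper (a : MvPolynomial (Fin (n + 1)) K) where
  /-- The map. -/
  φ : MvPolynomial (Fin (n + 1)) K →ₐ[K] MvPolynomial (Fin n) K
  /-- A section. -/
  sec : MvPolynomial (Fin n) K →ₐ[K] MvPolynomial (Fin (n + 1)) K
  hφ : ∀ {p : MvPolynomial (Fin (n + 1)) K} {d : ℕ}, p.IsHomogeneous d → (φ p).IsHomogeneous d
  hsec : ∀ {p : MvPolynomial (Fin n) K} {d : ℕ}, p.IsHomogeneous d → (sec p).IsHomogeneous d
  φ_sec : ∀ p, φ (sec p) = p
  φ_a : φ a = 0
  ker : ∀ p, φ p = 0 → ∃ r, p = a * r

lemma exists_linear {a : MvPolynomial (Fin n) K} (ha : a.IsHomogeneous 1) :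
    ∃ c : Fin n → K, a = ∑ i, c i • X i := by
  have h : a ∈ homogeneousSubmodule (Fin n) K 1 := ha
  rw [homogeneousSubmodule_one_eq_span_X, Submodule.mem_span_range_iff_exists_fun] at h
  obtain ⟨c, hc⟩ := h
  exact ⟨c, hc.symm⟩

lemma isHomogeneous_lin (c : Fin n → K) : (∑ i, c i • X i : MvPolynomial (Fin n) K).IsHomogeneous 1 :=
  IsHomogeneous.sum _ _ _ fun i _ => by
    rw [smul_eq_C_mul]
    exact (isHomogeneous_X K i).C_mul (c i)

theorem exists_hyper {a : MvPolynomial (Fin (n + 1)) K} (ha : a.IsHomogeneous 1) (ha0 : a ≠ 0) :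
    Nonempty (Hyper a) := by
  obtain ⟨c, rfl⟩ := exists_linear ha
  obtain ⟨j, hj⟩ : ∃ j, c j ≠ 0 := by
    by_contra h
    simp only [not_exists, not_not] at h
    simp [h] at ha0
  let g : Fin (n + 1) → MvPolynomial (Fin n) K :=
    j.insertNth (∑ i, (-(c j)⁻¹ * c (j.succAbove i)) • X i) X
  let φ : MvPolynomial (Fin (n + 1)) K →ₐ[K] MvPolynomial (Fin n) K := aeval g
  let sec : MvPolynomial (Fin n) K →ₐ[K] MvPolynomial (Fin (n + 1)) K :=
    aeval fun i => X (j.succAbove i)
  have hg : ∀ i, (g i).IsHomogeneous 1 := by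
    intro i
    refine Fin.succAboveCases j ?_ (fun k => ?_) i
    · simp only [g, Fin.insertNth_apply_same]; exact isHomogeneous_lin _
    · simp only [g, Fin.insertNth_apply_succAbove]; exact isHomogeneous_X K k
  have hgj : g j = ∑ i, (-(c j)⁻¹ * c (j.succAbove i)) • X i := Fin.insertNth_apply_same _ _ _
  have hgk : ∀ k, g (j.succAbove k) = X k := fun k => Fin.insertNth_apply_succAbove _ _ _ _
  have hφa : φ (∑ i, c i • X i) = 0 := by
    rw [map_sum, Fin.sum_univ_succAbove _ j]
    simp only [map_smul, φ, aeval_X, hgj, hgk, Finset.smul_sum, smul_smul]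
    rw [← Finset.sum_add_distrib]
    refine Finset.sum_eq_zero fun i _ => ?_
    rw [← add_smul]
    field_simp
    simp
  refine ⟨⟨φ, sec, fun {p d} hp => (one_mul d) ▸ hp.aeval g hg,
    fun {p d} hp => (one_mul d) ▸ hp.aeval _ fun i => isHomogeneous_X K (j.succAbove i),
    fun p => ?_, hφa, fun p hp => ?_⟩⟩
  · have : φ.comp sec = AlgHom.id K _ := algHom_ext fun i => by simp [φ, sec, hgk]
    exact DFunLike.congr_fun this p
  · set J := Ideal.span {∑ i, c i • X i} (α := MvPolynomial (Fin (n + 1)) K)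
    have hzero : Ideal.Quotient.mkₐ K J (∑ i, c i • X i) = 0 :=
      Ideal.Quotient.eq_zero_iff_mem.2 (Ideal.subset_span rfl)
    have hcomp : (Ideal.Quotient.mkₐ K J).comp (sec.comp φ) = Ideal.Quotient.mkₐ K J := by
      refine algHom_ext fun i => Fin.succAboveCases j ?_ (fun k => ?_) i
      · rw [map_sum, Fin.sum_univ_succAbove _ j] at hzero
        simp only [AlgHom.comp_apply, φ, sec, aeval_X, hgj, map_sum, map_smul]
        rw [add_eq_zero_iff_eq_neg] at hzero
        simp only [map_smul] at hzero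
        rw [eq_comm, ← inv_smul_smul₀ hj ((Ideal.Quotient.mkₐ K J) (X j)), hzero, smul_neg,
          Finset.smul_sum, ← Finset.sum_neg_distrib]
        refine Finset.sum_congr rfl fun k _ => ?_
        rw [smul_smul, neg_mul, neg_smul]
      · simp only [AlgHom.comp_apply, φ, sec, aeval_X, hgk]
    have h0 : Ideal.Quotient.mkₐ K J p = 0 := by
      rw [← hcomp, AlgHom.comp_apply, AlgHom.comp_apply, hp, map_zero, map_zero]
    obtain ⟨r, hr⟩ := Ideal.mem_span_singleton'.1 (Ideal.Quotient.eq_zero_iff_mem.1 h0)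
    exact ⟨r, by rw [← hr, mul_comm]⟩

namespace Hyper

variable {a : MvPolynomial (Fin (n + 1)) K} (H : Hyper a)

lemma surj : Function.Surjective H.φ := fun p => ⟨H.sec p, H.φ_sec p⟩

lemma component (p : MvPolynomial (Fin (n + 1)) K) (d : ℕ) :
    homogeneousComponent d (H.φ p) = H.φ (homogeneousComponent d p) := by
  conv_lhs => rw [← sum_homogeneousComponent (φ := p), map_sum, map_sum]
  rw [Finset.sum_eq_single d]
  · exact homogeneousComponent_eq_self (H.hφ (homogeneousComponent_isHomogeneous d p))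
  · intro i _ hi
    rw [homogeneousComponent_of_mem (H.hφ (homogeneousComponent_isHomogeneous i p)),
      if_neg (Ne.symm hi)]
  · intro hd
    rw [Finset.mem_range, not_lt] at hd
    rw [homogeneousComponent_eq_zero d p (by omega), map_zero, map_zero]

/-- The restriction of an ideal to the hyperplane. -/
def res (I : Ideal (MvPolynomial (Fin (n + 1)) K)) : Ideal (MvPolynomial (Fin n) K) :=
  I.map H.φ

lemma mem_res {I : Ideal (MvPolynomial (Fin (n + 1)) K)} {q : MvPolynomial (Fin n) K} :
    q ∈ H.res I ↔ ∃ p ∈ I, H.φ p = q :=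
  Ideal.mem_map_iff_of_surjective _ H.surj

lemma homog_res {I : Ideal (MvPolynomial (Fin (n + 1)) K)} (hI : Homog I) : Homog (H.res I) := by
  intro q hq d
  obtain ⟨p, hp, rfl⟩ := H.mem_res.1 hq
  rw [H.component]
  exact H.mem_res.2 ⟨_, hI p hp d, rfl⟩

lemma map_piece {I : Ideal (MvPolynomial (Fin (n + 1)) K)} (hI : Homog I) (d : ℕ) :
    (piece I d).map H.φ.toLinearMap = piece (H.res I) d := by
  ext q
  rw [Submodule.mem_map, mem_piece]
  constructor
  · rintro ⟨p, hp, rfl⟩
    exact ⟨H.mem_res.2 ⟨p, (mem_piece.1 hp).1, rfl⟩, H.hφ (mem_piece.1 hp).2⟩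
  · rintro ⟨hq, hqd⟩
    obtain ⟨p, hp, rfl⟩ := H.mem_res.1 hq
    refine ⟨homogeneousComponent d p,
      mem_piece.2 ⟨hI p hp d, homogeneousComponent_isHomogeneous d p⟩, ?_⟩
    rw [AlgHom.toLinearMap_apply, ← H.component, homogeneousComponent_eq_self hqd]

/-- The exact sequence of the hyperplane section, in dimensions. -/
theorem finrank_piece {I : Ideal (MvPolynomial (Fin (n + 1)) K)} (hI : Homog I)
    (ha : a.IsHomogeneous 1) (ha0 : a ≠ 0) (d : ℕ) :
    finrank K (piece I (d + 1))
      = finrank K (piece (P200.colon I a) d) + finrank K (piece (H.res I) (d + 1)) := by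
  set T := H.φ.toLinearMap.domRestrict (piece I (d + 1)) with hT
  have h1 : LinearMap.range T = piece (H.res I) (d + 1) := by
    rw [hT, LinearMap.range_domRestrict, H.map_piece hI]
  have h2 : (LinearMap.ker T).map (piece I (d + 1)).subtype
      = (piece (P200.colon I a) d).map (LinearMap.mulLeft K a) := by
    ext p
    constructor
    · rintro ⟨⟨p, hp⟩, hk, rfl⟩
      obtain ⟨hpI, hpd⟩ := mem_piece.1 hp
      obtain ⟨r, hr⟩ := H.ker p (LinearMap.mem_ker.1 hk)
      have e : a * homogeneousComponent d r = p := by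
        rw [← component_mul ha, ← hr, homogeneousComponent_eq_self hpd]
      exact ⟨homogeneousComponent d r,
        mem_piece.2 ⟨by rw [P200.mem_colon, e]; exact hpI, homogeneousComponent_isHomogeneous d r⟩, e⟩
    · rintro ⟨r, hr, rfl⟩
      obtain ⟨hrI, hrd⟩ := mem_piece.1 hr
      have hm : a * r ∈ piece I (d + 1) :=
        mem_piece.2 ⟨hrI, (Nat.add_comm 1 d) ▸ ha.mul hrd⟩
      refine ⟨⟨a * r, hm⟩, LinearMap.mem_ker.2 ?_, rfl⟩
      show H.φ (a * r) = 0
      rw [map_mul, H.φ_a, zero_mul]
  have h3 := LinearMap.finrank_range_add_finrank_ker T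
  rw [h1] at h3
  have h4 : finrank K (LinearMap.ker T) = finrank K (piece (P200.colon I a) d) := by
    rw [(Submodule.equivMapOfInjective _ (Submodule.subtype_injective _) _).finrank_eq, h2,
      ← (Submodule.equivMapOfInjective _ (mul_right_injective₀ ha0) _).finrank_eq]
  omega

/-- The same for Hilbert functions. -/
theorem hilb_succ {I : Ideal (MvPolynomial (Fin (n + 1)) K)} (hI : Homog I)
    (ha : a.IsHomogeneous 1) (ha0 : a ≠ 0) (d : ℕ) :
    hilb I (d + 1) = hilb (P200.colon I a) d + hilb (H.res I) (d + 1) := by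
  have e1 := H.finrank_piece hI ha ha0 d
  have e2 := H.finrank_piece (I := ⊤) (fun _ _ _ => Submodule.mem_top) ha ha0 d
  have e3 : P200.colon (⊤ : Ideal (MvPolynomial (Fin (n + 1)) K)) a = ⊤ :=
    Submodule.comap_top _
  have e4 : H.res ⊤ = ⊤ := Ideal.map_top _
  rw [e3, e4, piece_top, piece_top, piece_top] at e2
  have a1 := hilb_add I (d + 1)
  have a2 := hilb_add (P200.colon I a) d
  have a3 := hilb_add (H.res I) (d + 1)
  omega

/-- In degree zero nothing changes. -/
theorem hilb_zero {I : Ideal (MvPolynomial (Fin (n + 1)) K)} (hI : Homog I)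
    (ha : a.IsHomogeneous 1) : hilb (H.res I) 0 = hilb I 0 := by
  have inj : ∀ J : Ideal (MvPolynomial (Fin (n + 1)) K),
      Set.InjOn H.φ.toLinearMap (piece J 0) := by
    intro J p hp q hq h
    obtain ⟨-, hp⟩ := mem_piece.1 hp
    obtain ⟨-, hq⟩ := mem_piece.1 hq
    rw [← totalDegree_zero_iff_isHomogeneous, totalDegree_eq_zero_iff_eq_C] at hp hq
    rw [hp, hq] at h ⊢
    simpa using h
  have key : ∀ J : Ideal (MvPolynomial (Fin (n + 1)) K), Homog J →
      finrank K (piece (H.res J) 0) = finrank K (piece J 0) := by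
    intro J hJ
    rw [← H.map_piece hJ, ← LinearMap.range_domRestrict,
      LinearMap.finrank_range_of_inj ((LinearMap.injective_domRestrict_iff).2 ?_)]
    rw [Submodule.disjoint_def]
    intro p hp hp0
    exact inj J hp (Submodule.zero_mem _) (by simpa using hp0)
  have e2 := key ⊤ fun _ _ _ => Submodule.mem_top
  rw [show H.res ⊤ = ⊤ from Ideal.map_top _, piece_top, piece_top] at e2
  have a1 := hilb_add I 0
  have a2 := hilb_add (H.res I) 0
  have e1 := key I hI
  omega

end Hyper

end Vale.Agent.P200
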