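import Mathlib

/-!
P200: the combinatorial half. A sequence `h` is `Good n` if consecutive values are bounded by
shadows of families of subsets of `Fin n`; by Kruskal–Katona such sequences are exactly the
face counts of simplicial complexes, and two of them glue along a new vertex.
-/

namespace Vale.Agent.P200

open Finset Finset.Colex
open scoped FinsetFamily

/-- `h d` is the number of `d`-sets; each step is bounded by a shadow. -/
def Good (n : ℕ) (h : ℕ → ℕ) : Prop :=
  h 0 ≤ 1 ∧ ∀ d, ∃ A : Finset (Finset (Fin n)),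
    (A : Set (Finset (Fin n))).Sized (d + 1) ∧ #A = h (d + 1) ∧ #(∂ A) ≤ h d

/-- An initial segment of the colex order on `r`-sets of every admissible size. -/
lemma exists_seg (n r c : ℕ) (hc : c ≤ n.choose r) :
    ∃ A : Finset (Finset (Fin n)), IsInitSeg A r ∧ #A = c := by
  induction c with
  | zero => exact ⟨∅, isInitSeg_empty, card_empty⟩
  | succ c ih =>
    obtain ⟨A, hA, hAc⟩ := ih (by omega)
    have hne : ((univ : Finset (Fin n)).powersetCard r \ A).Nonempty := by
      rw [← card_pos]
      have h1 := le_card_sdiff A ((univ : Finset (Fin n)).powersetCard r)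
      rw [card_powersetCard, card_univ, Fintype.card_fin] at h1
      omega
    obtain ⟨s, hs, hmin⟩ := exists_min_image _ (fun s => toColex s) hne
    rw [mem_sdiff, mem_powersetCard] at hs
    refine ⟨insert s A, ⟨?_, ?_⟩, by rw [card_insert_of_notMem hs.2, hAc]⟩
    · intro t ht
      rw [coe_insert, Set.mem_insert_iff] at ht
      rcases ht with rfl | ht
      · exact hs.1.2
      · exact hA.1 ht
    · intro t u ht hu
      rcases mem_insert.1 ht with rfl | ht
      · by_contra hn
        rw [mem_insert, not_or] at hn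
        exact (hmin u (mem_sdiff.2 ⟨mem_powersetCard.2 ⟨subset_univ _, hu.2⟩, hn.2⟩)).not_gt hu.1
      · exact mem_insert_of_mem (hA.2 ht hu)

lemma card_le_choose {n r : ℕ} {A : Finset (Finset (Fin n))}
    (hA : (A : Set (Finset (Fin n))).Sized r) : #A ≤ n.choose r := by
  calc #A ≤ #((univ : Finset (Fin n)).powersetCard r) :=
        card_le_card fun s hs => mem_powersetCard.2 ⟨subset_univ _, hA hs⟩
    _ = n.choose r := by simp

lemma Good.le_choose {n : ℕ} {h : ℕ → ℕ} (hg : Good n h) (d : ℕ) : h d ≤ n.choose d := by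
  cases d with
  | zero => simpa using hg.1
  | succ d =>
    obtain ⟨A, hA, hc, -⟩ := hg.2 d
    exact hc ▸ card_le_choose hA

/-- A `Good` sequence consists of the face counts of a down-closed family. -/
theorem Good.complex {n : ℕ} {h : ℕ → ℕ} (hg : Good n h) :
    ∃ F : Finset (Finset (Fin n)), (∀ s ∈ F, ∀ t ⊆ s, t ∈ F) ∧
      ∀ d, #(F.filter fun s => #s = d) = h d := by
  classical
  choose A hA hAc using fun d => exists_seg n d (h d) (hg.le_choose d)
  have hsh : ∀ d, ∂ (A (d + 1)) ⊆ A d := by
    intro d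
    obtain ⟨B, hB, hBc, hBs⟩ := hg.2 d
    have h1 : #(∂ (A (d + 1))) ≤ #(A d) := by
      rw [hAc d]
      exact (kruskal_katona hB (by rw [hAc, hBc]) (hA (d + 1))).trans hBs
    have h2 : IsInitSeg (∂ (A (d + 1))) d := by simpa using (hA (d + 1)).shadow
    rcases h2.total (hA d) with h | h
    · exact h
    · exact (eq_of_subset_of_card_le h h1).ge
  refine ⟨univ.filter fun s => s ∈ A #s, fun s hs t hts => ?_, fun d => ?_⟩
  · simp only [mem_filter, mem_univ, true_and] at hs ⊢
    obtain ⟨k, hk⟩ : ∃ k, #(s \ t) = k := ⟨_, rfl⟩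
    induction k generalizing s with
    | zero =>
      rw [card_eq_zero, sdiff_eq_empty_iff_subset] at hk
      rwa [subset_antisymm hts hk]
    | succ k ih =>
      obtain ⟨a, ha⟩ : (s \ t).Nonempty := by rw [← card_pos]; omega
      rw [mem_sdiff] at ha
      have hcard : #(s.erase a) + 1 = #s := card_erase_add_one ha.1
      have hsub' : t ⊆ s.erase a := fun b hb =>
        mem_erase.2 ⟨fun e => ha.2 (e ▸ hb), hts hb⟩
      have hmem : s.erase a ∈ A #(s.erase a) :=
        hsh _ (mem_shadow_iff.2 ⟨s, by rw [hcard]; exact hs, a, ha.1, rfl⟩)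
      have hk' : #(s.erase a \ t) = k := by
        rw [erase_sdiff_comm, card_erase_of_mem (mem_sdiff.2 ha), hk]
        omega
      apply ih (s.erase a) <;> assumption
  · rw [← hAc d]
    congr 1
    ext s
    simp only [mem_filter, mem_univ, true_and]
    exact ⟨fun h => h.2 ▸ h.1, fun h => ⟨by rwa [(hA d).1 h], (hA d).1 h⟩⟩

/-- Gluing along a new vertex: `h (d+1) = h₁ (d+1) + h₂ d` with `h₂ d ≤ h₁ d`, degree by degree. -/
theorem good_glue {n : ℕ} {h : ℕ → ℕ} (h0 : h 0 ≤ 1)
    (hstep : ∀ d, ∃ h₁ h₂ : ℕ → ℕ, Good n h₁ ∧ Good n h₂ ∧ h₂ d ≤ h₁ d ∧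
      h (d + 1) = h₁ (d + 1) + h₂ d ∧ h₁ d + (if d = 0 then 0 else h₂ (d - 1)) ≤ h d) :
    Good (n + 1) h := by
  classical
  refine ⟨h0, fun d => ?_⟩
  obtain ⟨h₁, h₂, g₁, g₂, hle, he, hd⟩ := hstep d
  obtain ⟨A, hA, hAc⟩ := exists_seg n (d + 1) (h₁ (d + 1)) (g₁.le_choose _)
  obtain ⟨B, hB, hBc⟩ := exists_seg n d (h₂ d) (g₂.le_choose _)
  have hAs : #(∂ A) ≤ h₁ d := by
    obtain ⟨C, hC, hCc, hCs⟩ := g₁.2 d
    exact (kruskal_katona hC (by omega) hA).trans hCs
  have hBs : #(∂ B) ≤ if d = 0 then 0 else h₂ (d - 1) := by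
    rcases d with _ | e
    · have : ∂ B = ∅ := by
        rw [← subset_empty]
        refine (shadow_monotone (fun s hs => ?_ : B ⊆ {∅})).trans_eq (by simp)
        rw [mem_singleton, ← card_eq_zero]
        exact hB.1 hs
      simp [this]
    · obtain ⟨C, hC, hCc, hCs⟩ := g₂.2 e
      simpa using (kruskal_katona hC (by omega) hB).trans hCs
  have hU : #(∂ A ∪ B) ≤ h₁ d := by
    have hA' : IsInitSeg (∂ A) d := by simpa using hA.shadow
    rcases hA'.total hB with h' | h'
    · rw [union_eq_right.2 h', hBc]; exact hle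
    · rw [union_eq_left.2 h']; exact hAs
  let e : Fin n ↪ Fin (n + 1) := Fin.castSuccEmb
  let em : Finset (Fin n) → Finset (Fin (n + 1)) := fun s => s.map e
  let ins : Finset (Fin n) → Finset (Fin (n + 1)) := fun s => insert (Fin.last n) (s.map e)
  have hlast : ∀ s : Finset (Fin n), Fin.last n ∉ s.map e := fun s => by
    simp [e, (Fin.castSucc_lt_last _).ne]
  have hinj : Function.Injective em := fun s t h => map_injective e h
  have hinj' : Function.Injective ins := fun s t h => by
    refine map_injective e ?_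
    have := congrArg (fun u => u.erase (Fin.last n)) h
    simpa [ins, erase_insert (hlast s), erase_insert (hlast t)] using this
  have hdj : Disjoint (A.image em) (B.image ins) := by
    simp only [disjoint_left, mem_image, not_exists, not_and]
    rintro _ ⟨s, -, rfl⟩ t - h
    exact hlast s (by have := mem_insert_self (Fin.last n) (t.map e); simp only [em, ins] at h; rwa [h] at this)
  refine ⟨A.image em ∪ B.image ins, ?_, ?_, ?_⟩
  · intro s hs
    simp only [coe_union, coe_image, Set.mem_union, Set.mem_image, mem_coe] at hs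
    rcases hs with ⟨t, ht, rfl⟩ | ⟨t, ht, rfl⟩
    · simpa [em] using hA.1 ht
    · simpa [ins, card_insert_of_notMem (hlast t)] using hB.1 ht
  · rw [card_union_of_disjoint hdj, card_image_of_injective _ hinj,
      card_image_of_injective _ hinj', hAc, hBc, he]
  · have hsub : ∂ (A.image em ∪ B.image ins) ⊆ (∂ A ∪ B).image em ∪ (∂ B).image ins := by
      intro u hu
      rw [mem_shadow_iff] at hu
      obtain ⟨s, hs, x, hx, rfl⟩ := hu
      rcases mem_union.1 hs with h' | h' <;> obtain ⟨t, ht, rfl⟩ := mem_image.1 h'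
      · obtain ⟨y, hy, rfl⟩ := mem_map.1 hx
        refine mem_union_left _ (mem_image.2 ⟨t.erase y, mem_union_left _ ?_, by simp [em, map_erase]⟩)
        exact mem_shadow_iff.2 ⟨t, ht, y, hy, rfl⟩
      · rcases mem_insert.1 hx with rfl | hx'
        · exact mem_union_left _ (mem_image.2 ⟨t, mem_union_right _ ht,
            by simp [em, ins, erase_insert (hlast t)]⟩)
        · obtain ⟨y, hy, rfl⟩ := mem_map.1 hx'
          refine mem_union_right _ (mem_image.2 ⟨t.erase y,
            mem_shadow_iff.2 ⟨t, ht, y, hy, rfl⟩, ?_⟩)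
          have hne : Fin.last n ≠ e y := fun h => hlast t (h ▸ mem_map_of_mem e hy)
          simp [ins, map_erase, erase_insert_of_ne hne]
    refine (card_le_card hsub).trans ((card_union_le _ _).trans ?_)
    exact (add_le_add (card_image_le.trans hU) (card_image_le.trans hBs)).trans hd

end Vale.Agent.P200
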