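import Vale.Agent.P200.Alg

/-!
P200: over an algebraically closed field every quadric in at most two variables is a product of
two linear forms, and so is some member of every pencil of ternary quadrics.
-/

noncomputable section

namespace Vale.Agent.P200

open MvPolynomial Module

variable {K : Type*} [Field K]

/-- A product of two linear forms. -/
def Split {n : ℕ} (q : MvPolynomial (Fin n) K) : Prop :=
  ∃ a b : MvPolynomial (Fin n) K, a.IsHomogeneous 1 ∧ b.IsHomogeneous 1 ∧ q = a * b

/-- The half-discriminant of `a x² + b y² + c z² + d xy + e xz + g yz`. -/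
def disc {R : Type*} [CommRing R] (a b c d e g : R) : R :=
  4 * a * b * c + d * e * g - a * g ^ 2 - b * e ^ 2 - c * d ^ 2

/-- The coefficient equations of `(u·X)(w·X)`. -/
def IsProd (a b c d e g : K) : Prop :=
  ∃ u0 u1 u2 w0 w1 w2 : K, a = u0 * w0 ∧ b = u1 * w1 ∧ c = u2 * w2 ∧
    d = u0 * w1 + u1 * w0 ∧ e = u0 * w2 + u2 * w0 ∧ g = u1 * w2 + u2 * w1

variable [IsAlgClosed K]

lemma exists_quad_root {a : K} (ha : a ≠ 0) (b c : K) : ∃ r : K, a * r ^ 2 + b * r + c = 0 := by
  obtain ⟨r, hr⟩ := IsAlgClosed.exists_root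
    (Polynomial.C a * Polynomial.X ^ 2 + Polynomial.C b * Polynomial.X + Polynomial.C c)
    (by rw [Polynomial.degree_quadratic ha]; decide)
  exact ⟨r, by simpa using hr⟩

lemma binary_split (a d b : K) :
    ∃ u0 u1 w0 w1 : K, a = u0 * w0 ∧ b = u1 * w1 ∧ d = u0 * w1 + u1 * w0 := by
  by_cases ha : a = 0
  · exact ⟨0, 1, d, b, by simp [ha], by ring, by ring⟩
  · obtain ⟨r, hr⟩ := exists_quad_root ha d b
    exact ⟨a, -(a * r), 1, r + d / a, by ring, by field_simp; linear_combination hr,
      by field_simp; ring⟩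

lemma isProd_of_a_zero {b c d e g : K} (h : disc 0 b c d e g = 0) : IsProd 0 b c d e g := by
  simp only [disc, mul_zero, zero_mul, zero_add, sub_zero] at h
  by_cases hd : d = 0
  · subst hd
    by_cases he : e = 0
    · obtain ⟨u1, u2, w1, w2, hb, hc, hg⟩ := binary_split b g c
      exact ⟨0, u1, u2, 0, w1, w2, by simp, hb, hc, by simp, by simp [he], hg⟩
    · have hb : b = 0 := by
        simp only [zero_mul, zero_sub, ne_eq, OfNat.ofNat_ne_zero, not_false_eq_true, zero_pow,
          mul_zero, sub_zero, neg_eq_zero, mul_eq_zero, pow_eq_zero_iff] at h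
        tauto
      exact ⟨0, 0, 1, e, g, c, by simp, by simp [hb], by ring, by ring, by ring, by ring⟩
  · refine ⟨0, d, e, 1, b / d, (g - e * (b / d)) / d, by ring, by field_simp, ?_, by ring, by ring, ?_⟩
    · field_simp
      linear_combination -h
    · field_simp
      ring

/-- A conic with vanishing half-discriminant is a pair of lines. -/
lemma isProd_of_disc {a b c d e g : K} (h : disc a b c d e g = 0) : IsProd a b c d e g := by
  by_cases ha : a = 0
  · subst ha; exact isProd_of_a_zero h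
  · obtain ⟨r, hr⟩ := exists_quad_root ha d b
    have h' : disc 0 a c (d + 2 * a * r) (g + e * r) e = 0 := by
      simp only [disc] at h ⊢
      linear_combination h + (e ^ 2 - 4 * a * c) * hr
    obtain ⟨u0, u1, u2, w0, w1, w2, e0, e1, e2, e3, e4, e5⟩ := isProd_of_a_zero h'
    refine ⟨u1, u0 - r * u1, u2, w1, w0 - r * w1, w2, e1, ?_, e2, ?_, e5, ?_⟩
    · linear_combination e0 + hr - r * e3 + r ^ 2 * e1
    · linear_combination e3 - 2 * r * e1
    · linear_combination e4 - r * e5

/-- A pencil of ternary quadrics has a degenerate member. -/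
lemma exists_disc_root {a' b' c' d' e' g' : K} (h3 : disc a' b' c' d' e' g' ≠ 0)
    (a b c d e g : K) : ∃ t : K, disc (a + t * a') (b + t * b') (c + t * c') (d + t * d')
      (e + t * e') (g + t * g') = 0 := by
  set k0 := disc a b c d e g
  set k1 := 4 * (a' * b * c + a * b' * c + a * b * c') + d' * e * g + d * e' * g + d * e * g'
    - a' * g ^ 2 - 2 * a * g * g' - b' * e ^ 2 - 2 * b * e * e' - c' * d ^ 2 - 2 * c * d * d' with hk1
  set k2 := 4 * (a * b' * c' + a' * b * c' + a' * b' * c) + d * e' * g' + d' * e * g' + d' * e' * g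
    - a * g' ^ 2 - 2 * a' * g' * g - b * e' ^ 2 - 2 * b' * e' * e - c * d' ^ 2 - 2 * c' * d' * d
    with hk2
  obtain ⟨t, ht⟩ := IsAlgClosed.exists_root
    (Polynomial.C (disc a' b' c' d' e' g') * Polynomial.X ^ 3 + Polynomial.C k2 * Polynomial.X ^ 2
      + Polynomial.C k1 * Polynomial.X + Polynomial.C k0)
    (by rw [Polynomial.degree_cubic h3]; decide)
  refine ⟨t, ?_⟩
  simp only [Polynomial.IsRoot.def, Polynomial.eval_add, Polynomial.eval_mul, Polynomial.eval_C,
    Polynomial.eval_pow, Polynomial.eval_X] at ht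
  simp only [k0, hk1, hk2, disc] at ht ⊢
  linear_combination ht

lemma quad_expand {n : ℕ} {q : MvPolynomial (Fin n) K} (hq : q.IsHomogeneous 2) :
    ∃ M : Fin n × Fin n → K, q = ∑ p, M p • (X p.1 * X p.2) := by
  have h : q ∈ homogeneousSubmodule (Fin n) K 1 ^ 2 := by
    rw [homogeneousSubmodule_one_pow]; exact hq
  have e : homogeneousSubmodule (Fin n) K 1 ^ 2
      = Submodule.span K (Set.range fun p : Fin n × Fin n => (X p.1 * X p.2 : MvPolynomial _ K)) := by
    rw [pow_two, homogeneousSubmodule_one_eq_span_X, Submodule.span_mul_span]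
    congr 1
    ext x
    simp [Set.mem_mul]
  rw [e, Submodule.mem_span_range_iff_exists_fun] at h
  obtain ⟨M, hM⟩ := h
  exact ⟨M, hM.symm⟩

lemma split_of_vars_two {n : ℕ} (hn : n ≤ 2) {q : MvPolynomial (Fin n) K}
    (hq : q.IsHomogeneous 2) : Split q := by
  obtain ⟨M, rfl⟩ := quad_expand hq
  interval_cases n
  · exact ⟨0, 0, isHomogeneous_zero _ _ _, isHomogeneous_zero _ _ _, by simp⟩
  · refine ⟨C (M (0, 0)) * X 0, X 0, (isHomogeneous_X K 0).C_mul _, isHomogeneous_X K 0, ?_⟩
    simp [Fintype.sum_prod_type, smul_eq_C_mul, mul_assoc]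
  · obtain ⟨u0, u1, w0, w1, ha, hb, hd⟩ := binary_split (M (0, 0)) (M (0, 1) + M (1, 0)) (M (1, 1))
    refine ⟨∑ i, (![u0, u1] : Fin 2 → K) i • X i, ∑ i, (![w0, w1] : Fin 2 → K) i • X i,
      isHomogeneous_lin _, isHomogeneous_lin _, ?_⟩
    have hd' := congrArg (C : K → MvPolynomial (Fin 2) K) hd
    simp only [map_add, map_mul] at hd'
    simp [Fintype.sum_prod_type, Fin.sum_univ_two, smul_eq_C_mul, ha, hb, map_mul]
    linear_combination (X 0 * X 1) * hd'

/-- Some member of a pencil of quadrics in three variables splits. -/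
theorem exists_split_member (q q' : MvPolynomial (Fin 3) K) (hq : q.IsHomogeneous 2)
    (hq' : q'.IsHomogeneous 2) : Split q' ∨ ∃ t : K, Split (q + t • q') := by
  obtain ⟨M, hM⟩ := quad_expand hq
  obtain ⟨N, hN⟩ := quad_expand hq'
  have key : ∀ L : Fin 3 × Fin 3 → K,
      disc (L (0, 0)) (L (1, 1)) (L (2, 2)) (L (0, 1) + L (1, 0)) (L (0, 2) + L (2, 0))
        (L (1, 2) + L (2, 1)) = 0 → Split (∑ p, L p • (X p.1 * X p.2 : MvPolynomial (Fin 3) K)) := by
    intro L hL
    obtain ⟨u0, u1, u2, w0, w1, w2, e0, e1, e2, e3, e4, e5⟩ := isProd_of_disc hL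
    refine ⟨∑ i, (![u0, u1, u2] : Fin 3 → K) i • X i, ∑ i, (![w0, w1, w2] : Fin 3 → K) i • X i,
      isHomogeneous_lin _, isHomogeneous_lin _, ?_⟩
    have f3 := congrArg (C : K → MvPolynomial (Fin 3) K) e3
    have f4 := congrArg (C : K → MvPolynomial (Fin 3) K) e4
    have f5 := congrArg (C : K → MvPolynomial (Fin 3) K) e5
    simp only [map_add, map_mul] at f3 f4 f5
    simp [Fintype.sum_prod_type, Fin.sum_univ_three, smul_eq_C_mul, e0, e1, e2, map_mul]
    linear_combination (X 0 * X 1) * f3 + (X 0 * X 2) * f4 + (X 1 * X 2) * f5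
  by_cases h3 : disc (N (0, 0)) (N (1, 1)) (N (2, 2)) (N (0, 1) + N (1, 0)) (N (0, 2) + N (2, 0))
      (N (1, 2) + N (2, 1)) = 0
  · exact Or.inl (hN ▸ key N h3)
  · obtain ⟨t, ht⟩ := exists_disc_root h3 (M (0, 0)) (M (1, 1)) (M (2, 2)) (M (0, 1) + M (1, 0))
      (M (0, 2) + M (2, 0)) (M (1, 2) + M (2, 1))
    refine Or.inr ⟨t, ?_⟩
    have e : q + t • q' = ∑ p, (M p + t * N p) • (X p.1 * X p.2 : MvPolynomial (Fin 3) K) := by
      simp only [hM, hN, Finset.smul_sum, smul_smul, add_smul, Finset.sum_add_distrib]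
    rw [e]
    refine key _ ?_
    simp only [disc] at ht ⊢
    linear_combination ht

end Vale.Agent.P200
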