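import Vale.Agent.P200.Main

/-!
P200: descent to an arbitrary field: extending scalars to the algebraic closure keeps the Hilbert
function, so the quadrics only need to split over the algebraic closure.
-/

noncomputable section

namespace Vale.Agent.P200

open MvPolynomial Module

variable {K L : Type*} [Field K] [Field L] [Algebra K L] {n : ℕ}

/-- Extension of scalars of polynomials. -/
abbrev ext (L : Type*) [Field L] [Algebra K L] :
    MvPolynomial (Fin n) K →+* MvPolynomial (Fin n) L :=
  MvPolynomial.map (algebraMap K L)

lemma component_map (p : MvPolynomial (Fin n) K) (d : ℕ) :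
    homogeneousComponent d (ext L p) = ext L (homogeneousComponent d p) := by
  ext s
  simp [coeff_homogeneousComponent, coeff_map, apply_ite (algebraMap K L)]

lemma component_mul_map_mem (I : Ideal (MvPolynomial (Fin n) K)) (hI : Homog I)
    {p : MvPolynomial (Fin n) K} (hp : p ∈ I) (r : MvPolynomial (Fin n) L) (d : ℕ) :
    homogeneousComponent d (r * ext L p) ∈
      Submodule.span L (ext L '' (piece I d : Set (MvPolynomial (Fin n) K))) := by
  induction r using MvPolynomial.induction_on' with
  | monomial s c =>
    have e : (monomial s c : MvPolynomial (Fin n) L) * ext L p = c • ext L (monomial s 1 * p) := by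
      rw [map_mul, map_monomial, map_one, ← smul_mul_assoc, smul_monomial, smul_eq_mul, mul_one]
    rw [e, map_smul, component_map]
    exact Submodule.smul_mem _ _ (Submodule.subset_span
      ⟨_, mem_piece.2 ⟨hI _ (I.mul_mem_left _ hp) d, homogeneousComponent_isHomogeneous _ _⟩, rfl⟩)
  | add a b ha hb => rw [add_mul, map_add]; exact Submodule.add_mem _ ha hb

lemma component_map_ideal_mem (I : Ideal (MvPolynomial (Fin n) K)) (hI : Homog I)
    {x : MvPolynomial (Fin n) L} (hx : x ∈ I.map (ext L)) (d : ℕ) :
    homogeneousComponent d x ∈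
      Submodule.span L (ext L '' (piece I d : Set (MvPolynomial (Fin n) K))) := by
  obtain ⟨f, rfl⟩ := Finsupp.mem_span_range_iff_exists_finsupp.1
    (show x ∈ Ideal.span (Set.range fun p : I => ext L (p : MvPolynomial (Fin n) K)) by
      rw [Ideal.map, Set.image_eq_range] at hx; exact hx)
  rw [Finsupp.sum, map_sum]
  exact Submodule.sum_mem _ fun p _ => component_mul_map_mem I hI p.2 _ d

lemma homog_map {I : Ideal (MvPolynomial (Fin n) K)} (hI : Homog I) : Homog (I.map (ext L)) := by
  intro x hx d
  refine (Submodule.span_le (R := L) (p := (I.map (ext L)).restrictScalars L)).2 ?_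
    (component_map_ideal_mem I hI hx d)
  rintro _ ⟨p, hp, rfl⟩
  exact Ideal.mem_map_of_mem _ (mem_piece.1 hp).1

lemma piece_map {I : Ideal (MvPolynomial (Fin n) K)} (hI : Homog I) (d : ℕ) :
    piece (I.map (ext L)) d
      = Submodule.span L (ext L '' (piece I d : Set (MvPolynomial (Fin n) K))) := by
  refine le_antisymm (fun x hx => ?_) (Submodule.span_le.2 ?_)
  · obtain ⟨hxI, hxd⟩ := mem_piece.1 hx
    rw [← homogeneousComponent_eq_self hxd]
    exact component_map_ideal_mem I hI hxI d
  · rintro _ ⟨p, hp, rfl⟩
    exact mem_piece.2 ⟨Ideal.mem_map_of_mem _ (mem_piece.1 hp).1, (mem_piece.1 hp).2.map _⟩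

lemma part_eq_span_monomials (d : ℕ) :
    part K n d = Submodule.span K
      ((fun s : Fin n →₀ ℕ => monomial s (1 : K)) '' {s | s.degree = d}) := by
  refine le_antisymm (fun p hp => ?_) (Submodule.span_le.2 ?_)
  · rw [p.as_sum]
    refine Submodule.sum_mem _ fun s hs => ?_
    rw [show monomial s (coeff s p) = coeff s p • monomial s (1 : K) by simp [smul_monomial]]
    refine Submodule.smul_mem _ _ (Submodule.subset_span ⟨s, ?_, rfl⟩)
    by_contra h
    exact (mem_support_iff.1 hs) (IsHomogeneous.coeff_eq_zero hp h)
  · rintro _ ⟨s, hs, rfl⟩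
    exact isHomogeneous_monomial _ hs

omit [Algebra K L] in
lemma finrank_part_eq (d : ℕ) : finrank K (part K n d) = finrank L (part L n d) := by
  have hK := (MvPolynomial.basisMonomials (Fin n) K).linearIndependent
  have hL := (MvPolynomial.basisMonomials (Fin n) L).linearIndependent
  rw [coe_basisMonomials] at hK hL
  have hfin : Finite {s : Fin n →₀ ℕ | s.degree = d} := (Finsupp.finite_of_degree_eq d).to_subtype
  have := Fintype.ofFinite {s : Fin n →₀ ℕ | s.degree = d}
  rw [part_eq_span_monomials, part_eq_span_monomials, Set.image_eq_range, Set.image_eq_range]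
  exact (finrank_span_eq_card (hK.comp _ Subtype.val_injective)).trans
    (finrank_span_eq_card (hL.comp _ Subtype.val_injective)).symm

lemma finrank_span_map_le (V : Submodule K (MvPolynomial (Fin n) K)) [Module.Finite K V] :
    finrank L (Submodule.span L (ext L '' (V : Set (MvPolynomial (Fin n) K)))) ≤ finrank K V := by
  set b := Module.finBasis K V
  have e : Submodule.span L (ext L '' (V : Set (MvPolynomial (Fin n) K)))
      ≤ Submodule.span L (Set.range fun i => ext L (b i : MvPolynomial (Fin n) K)) := by
    refine Submodule.span_le.2 ?_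
    rintro _ ⟨p, hp, rfl⟩
    have h := congrArg (fun v : V => ext L (v : MvPolynomial (Fin n) K)) (b.sum_repr ⟨p, hp⟩)
    simp only [Submodule.coe_sum, Submodule.coe_smul, map_sum, smul_eq_C_mul, map_mul, map_C] at h
    rw [SetLike.mem_coe, ← h]
    refine Submodule.sum_mem _ fun i _ => ?_
    rw [← smul_eq_C_mul]
    exact Submodule.smul_mem _ _ (Submodule.subset_span ⟨i, rfl⟩)
  have : Module.Finite L
      (Submodule.span L (Set.range fun i => ext L (b i : MvPolynomial (Fin n) K))) :=
    Module.Finite.span_of_finite _ (Set.finite_range _)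
  refine (Submodule.finrank_mono e).trans ((finrank_range_le_card _).trans ?_)
  simp

lemma hilb_map {I : Ideal (MvPolynomial (Fin n) K)} (hI : Homog I) (d : ℕ) :
    hilb (I.map (ext L)) d = hilb I d := by
  obtain ⟨W, hW⟩ := Submodule.exists_isCompl ((piece I d).comap (part K n d).subtype)
  set W' := W.map (part K n d).subtype with hW'
  have hP : ((piece I d).comap (part K n d).subtype).map (part K n d).subtype = piece I d := by
    rw [Submodule.map_comap_subtype]
    exact inf_of_le_right inf_le_right
  have hsup : piece I d ⊔ W' = part K n d := by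
    rw [← hP, hW', ← Submodule.map_sup, hW.sup_eq_top, Submodule.map_subtype_top]
  have hsum : finrank K (piece I d) + finrank K W' = finrank K (part K n d) := by
    rw [← hP, hW', Submodule.finrank_map_subtype_eq, Submodule.finrank_map_subtype_eq]
    exact Submodule.finrank_add_eq_of_isCompl hW
  have : Module.Finite K W' := Submodule.finiteDimensional_of_le (hsup ▸ le_sup_right)
  set A := Submodule.span L (ext L '' (piece I d : Set (MvPolynomial (Fin n) K)))
  set B := Submodule.span L (ext L '' (W' : Set (MvPolynomial (Fin n) K)))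
  have hAB : part L n d ≤ A ⊔ B := by
    rw [part_eq_span_monomials]
    refine Submodule.span_le.2 ?_
    rintro _ ⟨s, hs, rfl⟩
    have hmem : (monomial s (1 : K)) ∈ piece I d ⊔ W' := by
      rw [hsup]; exact isHomogeneous_monomial _ hs
    obtain ⟨u, hu, w, hw, huw⟩ := Submodule.mem_sup.1 hmem
    have e : (monomial s (1 : L) : MvPolynomial (Fin n) L) = ext L u + ext L w := by
      rw [← map_add (ext L), huw]
      simp
    simp only [SetLike.mem_coe, e]
    exact Submodule.add_mem_sup (Submodule.subset_span ⟨u, hu, rfl⟩) (Submodule.subset_span ⟨w, hw, rfl⟩)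
  have hAle : A ≤ part L n d := by
    refine Submodule.span_le.2 ?_
    rintro _ ⟨p, hp, rfl⟩
    exact (mem_piece.1 hp).2.map _
  have hBle : B ≤ part L n d := by
    refine Submodule.span_le.2 ?_
    rintro _ ⟨p, hp, rfl⟩
    exact IsHomogeneous.map (show p ∈ part K n d from hsup ▸ (le_sup_right : W' ≤ _) hp) _
  have : Module.Finite L A := Submodule.finiteDimensional_of_le hAle
  have : Module.Finite L B := Submodule.finiteDimensional_of_le hBle
  have h1 : finrank L A ≤ _ := finrank_span_map_le (L := L) (piece I d)
  have h2 : finrank L B ≤ _ := finrank_span_map_le (L := L) W'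
  have h3 := (Submodule.finrank_mono hAB).trans (Submodule.finrank_add_le_finrank_add_finrank A B)
  have h4 : finrank K (part K n d) = finrank L (part L n d) := finrank_part_eq d
  have h5 := hilb_add I d
  have h6 := hilb_add (I.map (ext L)) d
  have hA : finrank L (piece (I.map (ext L)) d) = finrank L A := by rw [piece_map hI]
  omega

open Classical in
/-- EGH over every field for `n` quadrics of finite colength, all but four split over `K̄`. -/
theorem egh_quadrics_field (I : Ideal (MvPolynomial (Fin n) K)) (hI : Homog I)
    (q : Fin n → MvPolynomial (Fin n) K) (hq : ∀ i, q i ∈ I) (hd : ∀ i, (q i).IsHomogeneous 2)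
    (hfc : FiniteColength q)
    (hns : FewNonsplit fun i => ext (AlgebraicClosure K) (q i)) :
    ∃ F : Finset (Finset (Fin n)), (∀ s ∈ F, ∀ t ⊆ s, t ∈ F) ∧
      ∀ d, (F.filter fun s => s.card = d).card = hilb I d := by
  obtain ⟨N, hN⟩ := hfc
  have hfc' : FiniteColength fun i => ext (AlgebraicClosure K) (q i) := by
    refine ⟨N, fun p hp => ?_⟩
    rw [p.as_sum]
    refine Ideal.sum_mem _ fun s hs => ?_
    have hsd : s.degree = N := by
      by_contra h
      exact (mem_support_iff.1 hs) (hp.coeff_eq_zero h)
    have h1 := Ideal.mem_map_of_mem (ext (AlgebraicClosure K))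
      (hN (monomial s 1) (isHomogeneous_monomial _ hsd))
    rw [Ideal.map_span, ← Set.range_comp, map_monomial, map_one] at h1
    have e : monomial s (coeff s p) = C (coeff s p) * monomial s (1 : AlgebraicClosure K) := by
      rw [C_mul_monomial, mul_one]
    rw [e]
    exact Ideal.mul_mem_left _ _ h1
  obtain ⟨F, hF, hFc⟩ := egh_quadrics (I.map (ext (AlgebraicClosure K))) (homog_map hI)
    (fun i => ext (AlgebraicClosure K) (q i)) (fun i => Ideal.mem_map_of_mem _ (hq i))
    (fun i => (hd i).map _) hfc' hns
  exact ⟨F, hF, fun d => (hFc d).trans (hilb_map hI d)⟩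

end Vale.Agent.P200
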