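import Vale.Agent.P200.Comb
import Vale.Agent.P200.Conic
import Vale.Agent.P200.SplitWeb

/-!
P200: EGH for ideals containing `n` quadrics of finite colength in `n` variables, all but at most
four of which are products of two linear forms.
-/

noncomputable section

namespace Vale.Agent.P200

open MvPolynomial Module

variable {K : Type*} [Field K] {n : ℕ}

/-- The family generates all forms of some degree. -/
def FiniteColength {ι : Type*} (q : ι → MvPolynomial (Fin n) K) : Prop :=
  ∃ N, ∀ p : MvPolynomial (Fin n) K, p.IsHomogeneous N → p ∈ Ideal.span (Set.range q)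

/-- Setting the first `k` variables to zero. -/
def killFirst (K : Type*) [Field K] (n k : ℕ) : MvPolynomial (Fin n) K →ₐ[K] MvPolynomial (Fin n) K :=
  aeval fun i : Fin n => if (i : ℕ) < k then 0 else X i

lemma isPrime_killFirst (n k : ℕ) : (RingHom.ker (killFirst K n k)).IsPrime :=
  RingHom.ker_isPrime _

lemma killFirst_comp (n k : ℕ) :
    (killFirst K n (k + 1)).comp (killFirst K n k) = killFirst K n (k + 1) := by
  refine algHom_ext fun i => ?_
  by_cases hi : (i : ℕ) < k
  · simp only [killFirst, AlgHom.comp_apply, aeval_X, if_pos hi, if_pos (Nat.lt_succ_of_lt hi), map_zero]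
  · simp only [killFirst, AlgHom.comp_apply, aeval_X, if_neg hi]

lemma le_primeHeight_killFirst (n : ℕ) : ∀ k, k ≤ n →
    (k : ℕ∞) ≤ (RingHom.ker (killFirst K n k)).height := by
  intro k hk
  induction k with
  | zero => simp
  | succ k ih =>
    have := isPrime_killFirst (K := K) n k
    have := isPrime_killFirst (K := K) n (k + 1)
    have hlt : RingHom.ker (killFirst K n k) < RingHom.ker (killFirst K n (k + 1)) := by
      refine lt_of_le_of_ne (fun p hp => ?_) fun h => ?_
      · rw [RingHom.mem_ker] at hp ⊢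
        rw [← killFirst_comp, AlgHom.comp_apply, hp, map_zero]
      · have hm : (X ⟨k, by omega⟩ : MvPolynomial (Fin n) K) ∈ RingHom.ker (killFirst K n (k + 1)) := by
          rw [RingHom.mem_ker]; simp [killFirst]
        rw [← h, RingHom.mem_ker] at hm
        simp [killFirst] at hm
    have h1 := Ideal.height_add_one_le_of_lt_of_isPrime hlt
    push_cast
    exact (add_le_add (ih (by omega)) le_rfl).trans h1

/-- Fewer than `n` quadrics never have finite colength in `n` variables. -/
theorem FiniteColength.card_ge {ι : Type*} [Fintype ι] {q : ι → MvPolynomial (Fin n) K}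
    (hq : FiniteColength q) (hd : ∀ i, (q i).IsHomogeneous 2) : n ≤ Fintype.card ι := by
  classical
  set m := RingHom.ker (killFirst K n n)
  have := isPrime_killFirst (K := K) n n
  obtain ⟨N, hN⟩ := hq
  have hkill : killFirst K n n = (Algebra.ofId K _).comp (aeval fun _ : Fin n => (0 : K)) :=
    algHom_ext fun i => by simp [killFirst]
  have hm : m ∈ (Ideal.span (Set.range q)).minimalPrimes := by
    refine ⟨⟨isPrime_killFirst n n, Ideal.span_le.2 ?_⟩, ?_⟩
    · rintro _ ⟨i, rfl⟩
      rw [SetLike.mem_coe, RingHom.mem_ker, hkill, AlgHom.comp_apply]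
      have : aeval (fun _ : Fin n => (0 : K)) (q i) = 0 := by
        rw [aeval_zero']
        simp [constantCoeff_eq, (hd i).coeff_eq_zero (d := 0) (by simp)]
      rw [this, map_zero]
    · rintro P ⟨hP, hle⟩ - p hp
      have hX : ∀ i, (X i : MvPolynomial (Fin n) K) ∈ P := fun i =>
        hP.mem_of_pow_mem N (hle (hN _ (isHomogeneous_X_pow i N)))
      have hcong : (Ideal.Quotient.mkₐ K P).comp (killFirst K n n) = Ideal.Quotient.mkₐ K P :=
        algHom_ext fun i => by
          simp [killFirst, Ideal.Quotient.eq_zero_iff_mem.2 (hX i)]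
      have : Ideal.Quotient.mkₐ K P p = 0 := by
        rw [← hcong, AlgHom.comp_apply, show killFirst K n n p = 0 from hp, map_zero]
      exact Ideal.Quotient.eq_zero_iff_mem.1 this
  have h1 := (le_primeHeight_killFirst (K := K) n n le_rfl).trans
    (Ideal.height_le_card_of_mem_minimalPrimes_span (Set.finite_range q) hm)
  have h2 : (Set.range q).ncard ≤ Fintype.card ι := by
    rw [← Nat.card_eq_fintype_card, ← Nat.card_coe_set_eq]
    exact Finite.card_range_le q
  exact (Nat.cast_le.1 h1).trans h2

lemma piece_zero_vars (d : ℕ) : part K 0 (d + 1) = ⊥ := by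
  rw [Submodule.eq_bot_iff]
  intro p hp
  by_contra h
  exact absurd ((isHomogeneous_of_isEmpty (σ := Fin 0) (R := K) (f := p)).inj_right hp h) (by omega)

variable [IsAlgClosed K]

open Classical in
/-- At most four of the quadrics fail to split. -/
def FewNonsplit (q : Fin n → MvPolynomial (Fin n) K) : Prop :=
  (Finset.univ.filter fun i => ¬ Split (q i)).card ≤ 4

open Classical in
/-- Four quadrics of finite colength in four variables: one may be taken to be split. -/
lemma exists_split_four (I : Ideal (MvPolynomial (Fin 4) K))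
    (q : Fin 4 → MvPolynomial (Fin 4) K) (hI : ∀ i, q i ∈ I)
    (hd : ∀ i, (q i).IsHomogeneous 2) (hfc : FiniteColength q) :
    ∃ q' : Fin 4 → MvPolynomial (Fin 4) K, (∀ i, q' i ∈ I) ∧
      (∀ i, (q' i).IsHomogeneous 2) ∧ FiniteColength q' ∧ FewNonsplit q' ∧ ∃ j, Split (q' j) := by
  have hli : LinearIndependent K q := by
    refine Fintype.linearIndependent_iff.2 fun g hg j => by_contra fun hj => ?_
    have hfc' : FiniteColength (q ∘ j.succAbove) := by
      obtain ⟨N, hN⟩ := hfc
      refine ⟨N, fun p hp => (Ideal.span_le.2 ?_) (hN p hp)⟩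
      rintro _ ⟨i, rfl⟩
      refine Fin.succAboveCases j ?_ (fun k => Ideal.subset_span ⟨k, rfl⟩) i
      have e : q j = C (-(g j)⁻¹) * ∑ k, g (j.succAbove k) • q (j.succAbove k) := by
        rw [Fin.sum_univ_succAbove _ j, add_eq_zero_iff_eq_neg] at hg
        rw [← neg_eq_iff_eq_neg.2 hg, ← smul_eq_C_mul, smul_neg, neg_smul, neg_neg,
          inv_smul_smul₀ hj]
      rw [SetLike.mem_coe, e]
      refine Ideal.mul_mem_left _ _ (Ideal.sum_mem _ fun k _ => ?_)
      rw [smul_eq_C_mul]
      exact Ideal.mul_mem_left _ _ (Ideal.subset_span ⟨k, rfl⟩)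
    have := hfc'.card_ge fun i => hd _
    simp at this
  obtain ⟨p, hp, hp0, hps⟩ := exists_split_mem_web q hd hli
  obtain ⟨g, hg⟩ := (Submodule.mem_span_range_iff_exists_fun K).1 hp
  obtain ⟨j, hj⟩ : ∃ j, g j ≠ 0 := by
    by_contra h
    simp only [not_exists, not_not] at h
    simp [h] at hg
    exact hp0 hg.symm
  refine ⟨Function.update q j p, fun i => ?_, fun i => ?_, ?_,
    (Finset.card_le_univ _).trans (by simp), j, by simpa using hps⟩
  · rcases eq_or_ne i j with rfl | hi
    · rw [Function.update_self, ← hg]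
      refine Submodule.sum_mem _ fun k _ => ?_
      rw [smul_eq_C_mul]
      exact I.mul_mem_left _ (hI k)
    · rw [Function.update_of_ne hi]; exact hI i
  · rcases eq_or_ne i j with rfl | hi
    · rw [Function.update_self, ← hg]
      refine IsHomogeneous.sum _ _ _ fun k _ => ?_
      rw [smul_eq_C_mul]
      exact (hd k).C_mul _
    · rw [Function.update_of_ne hi]; exact hd i
  · obtain ⟨N, hN⟩ := hfc
    refine ⟨N, fun r hr => (Ideal.span_le.2 ?_) (hN r hr)⟩
    rintro _ ⟨i, rfl⟩
    rcases eq_or_ne i j with rfl | hi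
    · rw [Fin.sum_univ_succAbove _ i, ← eq_sub_iff_add_eq] at hg
      rw [SetLike.mem_coe, ← inv_smul_smul₀ hj (q i), hg, smul_eq_C_mul]
      refine Ideal.mul_mem_left _ _ (Ideal.sub_mem _ (Ideal.subset_span ⟨i, by simp⟩)
        (Ideal.sum_mem _ fun k _ => ?_))
      rw [smul_eq_C_mul]
      exact Ideal.mul_mem_left _ _ (Ideal.subset_span
        ⟨i.succAbove k, by simp [Function.update_of_ne (Fin.succAbove_ne i k)]⟩)
    · exact Ideal.subset_span ⟨i, Function.update_of_ne hi _ _⟩

open Classical in
lemma exists_split_family (I : Ideal (MvPolynomial (Fin (n + 1)) K))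
    (q : Fin (n + 1) → MvPolynomial (Fin (n + 1)) K) (hI : ∀ i, q i ∈ I)
    (hd : ∀ i, (q i).IsHomogeneous 2) (hfc : FiniteColength q) (hns : FewNonsplit q) :
    ∃ q' : Fin (n + 1) → MvPolynomial (Fin (n + 1)) K, (∀ i, q' i ∈ I) ∧
      (∀ i, (q' i).IsHomogeneous 2) ∧ FiniteColength q' ∧ FewNonsplit q' ∧ ∃ j, Split (q' j) := by
  by_cases h : ∃ j, Split (q j)
  · exact ⟨q, hI, hd, hfc, hns, h⟩
  simp only [not_exists] at h
  have hn : n + 1 ≤ 4 := by
    have : (Finset.univ.filter fun i => ¬ Split (q i)) = Finset.univ :=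
      Finset.filter_true_of_mem fun i _ => h i
    simpa [FewNonsplit, this] using hns
  rcases (show n + 1 < 3 ∨ n = 2 ∨ n = 3 by omega) with hlt | rfl | rfl
  · exact absurd (split_of_vars_two (by omega) (hd 0)) (h 0)
  rotate_left
  · exact exists_split_four I q hI hd hfc
  rcases exists_split_member (q 0) (q 1) (hd 0) (hd 1) with h1 | ⟨t, ht⟩
  · exact absurd h1 (h 1)
  refine ⟨Function.update q 0 (q 0 + t • q 1), ?_, ?_, ?_, ?_, 0, by simpa using ht⟩
  · intro i
    rcases eq_or_ne i 0 with rfl | hi
    · rw [Function.update_self, smul_eq_C_mul]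
      exact I.add_mem (hI 0) (I.mul_mem_left _ (hI 1))
    · rw [Function.update_of_ne hi]; exact hI i
  · intro i
    rcases eq_or_ne i 0 with rfl | hi
    · rw [Function.update_self, smul_eq_C_mul]
      exact (hd 0).add ((hd 1).C_mul t)
    · rw [Function.update_of_ne hi]; exact hd i
  · obtain ⟨N, hN⟩ := hfc
    refine ⟨N, fun p hp => (Ideal.span_le.2 ?_) (hN p hp)⟩
    rintro _ ⟨i, rfl⟩
    set q' := Function.update q 0 (q 0 + t • q 1) with hq'
    have hmem : ∀ k, q' k ∈ Ideal.span (Set.range q') := fun k => Ideal.subset_span ⟨k, rfl⟩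
    rcases eq_or_ne i 0 with rfl | hi
    · have e : q 0 = q' 0 - C t * q' 1 := by
        simp [hq', smul_eq_C_mul, Function.update_of_ne]
      rw [SetLike.mem_coe, e]
      exact Ideal.sub_mem _ (hmem 0) (Ideal.mul_mem_left _ _ (hmem 1))
    · have e : q i = q' i := by rw [hq', Function.update_of_ne hi]
      rw [SetLike.mem_coe, e]; exact hmem i
  · exact (Finset.card_le_univ _).trans (by simp)

open Classical in
/-- EGH in numerical form. -/
theorem good_hilb : ∀ (n : ℕ) (I : Ideal (MvPolynomial (Fin n) K)), Homog I →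
    ∀ q : Fin n → MvPolynomial (Fin n) K, (∀ i, q i ∈ I) → (∀ i, (q i).IsHomogeneous 2) →
      FiniteColength q → FewNonsplit q → Good n (hilb I) := by
  intro n
  induction n with
  | zero =>
    intro I _ _ _ _ _ _
    refine ⟨hilb_zero_le I, fun d => ⟨∅, by simp [Set.Sized], ?_, by simp⟩⟩
    have : finrank K (part K 0 (d + 1)) = 0 := by rw [piece_zero_vars]; simp
    simp [hilb, this]
  | succ n ih =>
    intro I hI q₀ hq₀ hd₀ hfc₀ hns₀
    obtain ⟨q, hq, hd, hfc, hns, j, a, b, ha, hb, hab⟩ :=
      exists_split_family I q₀ hq₀ hd₀ hfc₀ hns₀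
    have hj0 : q j ≠ 0 := by
      intro h0
      have hfc' : FiniteColength (q ∘ j.succAbove) := by
        obtain ⟨N, hN⟩ := hfc
        refine ⟨N, fun p hp => (Ideal.span_le.2 ?_) (hN p hp)⟩
        rintro _ ⟨i, rfl⟩
        refine Fin.succAboveCases j ?_ (fun k => ?_) i
        · rw [h0]; exact Submodule.zero_mem _
        · exact Ideal.subset_span ⟨k, rfl⟩
      have := hfc'.card_ge fun i => hd _
      simp at this
    have ha0 : a ≠ 0 := fun h => hj0 (by rw [hab, h, zero_mul])
    have hb0 : b ≠ 0 := fun h => hj0 (by rw [hab, h, mul_zero])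
    -- restriction to a hyperplane containing the split quadric
    have hres : ∀ (c : MvPolynomial (Fin (n + 1)) K) (H : Hyper c), H.φ (q j) = 0 →
        ∀ J : Ideal (MvPolynomial (Fin (n + 1)) K), Homog J → I ≤ J →
          Good n (hilb (H.res J)) := by
      intro c H hc J hJ hle
      refine ih (H.res J) (H.homog_res hJ) (fun k => H.φ (q (j.succAbove k)))
        (fun k => H.mem_res.2 ⟨_, hle (hq _), rfl⟩) (fun k => H.hφ (hd _)) ?_ ?_
      · obtain ⟨N, hN⟩ := hfc
        refine ⟨N, fun p hp => ?_⟩
        have h1 := Ideal.mem_map_of_mem H.φ (hN _ (H.hsec hp))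
        rw [H.φ_sec, Ideal.map_span] at h1
        refine (Ideal.span_le.2 ?_) h1
        rintro _ ⟨_, ⟨i, rfl⟩, rfl⟩
        refine Fin.succAboveCases j ?_ (fun k => ?_) i
        · rw [hc]; exact Submodule.zero_mem _
        · exact Ideal.subset_span ⟨k, rfl⟩
      · refine le_trans ?_ hns
        refine Finset.card_le_card_of_injOn j.succAbove ?_ (Fin.succAbove_right_injective.injOn)
        intro k hk
        simp only [Finset.coe_filter, Finset.mem_univ, true_and, Set.mem_ofPred_eq] at hk ⊢
        rintro ⟨u, w, hu, hw, e⟩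
        exact hk ⟨H.φ u, H.φ w, H.hφ hu, H.hφ hw, by rw [e, map_mul]⟩
    obtain ⟨Ha⟩ := exists_hyper ha ha0
    obtain ⟨Hb⟩ := exists_hyper hb hb0
    -- one gluing step, given the order of the two factors
    have step : ∀ (d : ℕ) (a b : MvPolynomial (Fin (n + 1)) K) (Ha : Hyper a) (Hb : Hyper b),
        a.IsHomogeneous 1 → b.IsHomogeneous 1 → a ≠ 0 → b ≠ 0 → q j = a * b →
        hilb (Hb.res I) d ≤ hilb (Ha.res I) d →
        ∃ h₁ h₂ : ℕ → ℕ, Good n h₁ ∧ Good n h₂ ∧ h₂ d ≤ h₁ d ∧
          hilb I (d + 1) = h₁ (d + 1) + h₂ d ∧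
          h₁ d + (if d = 0 then 0 else h₂ (d - 1)) ≤ hilb I d := by
      intro d a b Ha Hb ha hb ha0 hb0 hab hord
      have hcI : Homog (colon I a) := hI.colon ha
      have htop : colon (colon I a) b = ⊤ := by
        rw [eq_top_iff]
        intro p _
        rw [mem_colon, mem_colon, ← mul_assoc, ← hab]
        exact I.mul_mem_right _ (hq j)
      have hcol : ∀ e, hilb (colon I a) e = hilb (Hb.res (colon I a)) e := by
        intro e
        cases e with
        | zero => exact (Hb.hilb_zero hcI hb).symm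
        | succ e => rw [Hb.hilb_succ hcI hb hb0 e, htop, hilb_top, zero_add]
      refine ⟨hilb (Ha.res I), hilb (Hb.res (colon I a)),
        hres a Ha (by rw [hab, map_mul, Ha.φ_a, zero_mul]) I hI le_rfl,
        hres b Hb (by rw [hab, map_mul, Hb.φ_a, mul_zero]) _ hcI (le_colon I a),
        (hilb_anti (Ideal.map_mono (le_colon I a)) d).trans hord, ?_, ?_⟩
      · rw [Ha.hilb_succ hI ha ha0 d, hcol d, add_comm]
      · cases d with
        | zero => simp [Ha.hilb_zero hI ha]
        | succ e =>
          rw [Ha.hilb_succ hI ha ha0 e, hcol e, if_neg (Nat.succ_ne_zero e), Nat.succ_sub_one]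
          omega
    refine good_glue (hilb_zero_le I) fun d => ?_
    rcases le_total (hilb (Hb.res I) d) (hilb (Ha.res I) d) with h | h
    · exact step d a b Ha Hb ha hb ha0 hb0 hab h
    · exact step d b a Hb Ha hb ha hb0 ha0 (hab.trans (mul_comm a b)) h

/-- EGH: the Hilbert function is that of the complement of a squarefree monomial order ideal. -/
theorem egh_quadrics {n : ℕ} (I : Ideal (MvPolynomial (Fin n) K)) (hI : Homog I)
    (q : Fin n → MvPolynomial (Fin n) K) (hq : ∀ i, q i ∈ I) (hd : ∀ i, (q i).IsHomogeneous 2)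
    (hfc : FiniteColength q) (hns : FewNonsplit q) :
    ∃ F : Finset (Finset (Fin n)), (∀ s ∈ F, ∀ t ⊆ s, t ∈ F) ∧
      ∀ d, (F.filter fun s => s.card = d).card = hilb I d :=
  (good_hilb n I hI q hq hd hfc hns).complex

end Vale.Agent.P200
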